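import Vale.Agent.P347.Bdl.B1
import Vale.Agent.P347.H941.Defs
import Mathlib.MeasureTheory.Measure.Decomposition.Hahn
import Mathlib.MeasureTheory.Measure.Sub

/-!
P347: one coupling for the total variation distance and the Wasserstein distances.
-/

open MeasureTheory Set
open scoped ENNReal

namespace Vale.Agent.N347

open Vale.Agent.P347

/-- The maximal coupling. -/
theorem exists_coupling {E : Type*} [MeasurableSpace E]
    (hE : MeasurableSet {z : E × E | z.1 ≠ z.2}) (μ ν : Measure E) [IsProbabilityMeasure μ]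
    [IsProbabilityMeasure ν] {θ : ℝ} (h : ∀ B, MeasurableSet B → |μ.real B - ν.real B| ≤ θ) :
    ∃ γ : Measure (E × E), γ.fst = μ ∧ γ.snd = ν ∧ γ {z | z.1 ≠ z.2} ≤ ENNReal.ofReal θ := by
  obtain ⟨s, hs, h1, h2⟩ := hahn_decomposition μ ν
  have l1 : ν.restrict s ≤ μ.restrict s := by
    rw [Measure.le_iff]
    intro t ht
    rw [Measure.restrict_apply ht, Measure.restrict_apply ht]
    exact h1 _ (ht.inter hs) inter_subset_right
  have l2 : μ.restrict sᶜ ≤ ν.restrict sᶜ := by
    rw [Measure.le_iff]
    intro t ht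
    rw [Measure.restrict_apply ht, Measure.restrict_apply ht]
    exact h2 _ (ht.inter hs.compl) inter_subset_right
  obtain ⟨a, ha⟩ : ∃ a, a = μ.restrict s - ν.restrict s := ⟨_, rfl⟩
  obtain ⟨b, hb⟩ : ∃ b, b = ν.restrict sᶜ - μ.restrict sᶜ := ⟨_, rfl⟩
  obtain ⟨m, hm⟩ : ∃ m, m = ν.restrict s + μ.restrict sᶜ := ⟨_, rfl⟩
  have ea : a + m = μ := by
    rw [ha, hm, ← add_assoc, Measure.sub_add_cancel_of_le l1,
      Measure.restrict_add_restrict_compl hs]
  have eb : b + m = ν := by
    rw [hb, hm, add_comm (ν.restrict s), ← add_assoc, Measure.sub_add_cancel_of_le l2, add_comm,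
      Measure.restrict_add_restrict_compl hs]
  have : IsFiniteMeasure a := by rw [ha]; infer_instance
  have : IsFiniteMeasure b := by rw [hb]; infer_instance
  have : IsFiniteMeasure m := by rw [hm]; infer_instance
  have eab : b univ = a univ := by
    have e1 : a univ + m univ = 1 := by rw [← Measure.add_apply, ea, measure_univ]
    have e2 : b univ + m univ = 1 := by rw [← Measure.add_apply, eb, measure_univ]
    exact (ENNReal.add_left_inj (measure_ne_top m univ)).1 (e2.trans e1.symm)
  have hτ : a univ ≤ ENNReal.ofReal θ := by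
    rw [ha, Measure.sub_apply MeasurableSet.univ l1, Measure.restrict_apply_univ,
      Measure.restrict_apply_univ, ← ENNReal.ofReal_toReal (measure_ne_top μ s),
      ← ENNReal.ofReal_toReal (measure_ne_top ν s),
      ← ENNReal.ofReal_sub _ ENNReal.toReal_nonneg]
    exact ENNReal.ofReal_le_ofReal ((le_abs_self _).trans (h s hs))
  have hc : ∀ c : Measure E, c univ = a univ → (a univ)⁻¹ • (a univ) • c = c := by
    intro c hc
    by_cases h0 : a univ = 0
    · have : c = 0 := Measure.measure_univ_eq_zero.1 (hc.trans h0)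
      rw [this, smul_zero, smul_zero]
    · rw [smul_smul, ENNReal.inv_mul_cancel h0 (measure_ne_top _ _), one_smul]
  have hdiag : Measurable fun x : E => (x, x) := measurable_id.prodMk measurable_id
  refine ⟨m.map (fun x => (x, x)) + (a univ)⁻¹ • a.prod b, ?_, ?_, ?_⟩
  · rw [Measure.fst, Measure.map_add _ _ measurable_fst, Measure.map_map measurable_fst hdiag,
      Measure.map_smul, Measure.map_fst_prod, eab, hc a rfl, add_comm, ← ea]
    congr 1
    exact Measure.map_id
  · rw [Measure.snd, Measure.map_add _ _ measurable_snd, Measure.map_map measurable_snd hdiag,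
      Measure.map_smul, Measure.map_snd_prod, hc b eab, add_comm, ← eb]
    congr 1
    exact Measure.map_id
  · rw [Measure.add_apply, Measure.map_apply hdiag hE]
    have h0 : (fun x : E => (x, x)) ⁻¹' {z : E × E | z.1 ≠ z.2} = ∅ := by
      ext x
      simp
    rw [h0, measure_empty, zero_add, Measure.smul_apply, smul_eq_mul]
    refine le_trans ?_ hτ
    calc (a univ)⁻¹ * a.prod b {z | z.1 ≠ z.2} ≤ (a univ)⁻¹ * a.prod b univ := by
          gcongr
          exact subset_univ _
      _ = (a univ)⁻¹ * a univ * a univ := by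
          rw [← univ_prod_univ, Measure.prod_prod, eab, mul_assoc]
      _ ≤ 1 * a univ := by
          gcongr
          exact ENNReal.inv_mul_le_one _
      _ = a univ := one_mul _

variable {d q : ℕ}

theorem lintegral_gauss {b : ℝ} (hb : 0 < b) :
    ∫⁻ y : Eu d, ENNReal.ofReal (Real.exp (-(b * ‖y‖ ^ 2))) =
      ENNReal.ofReal ((Real.pi / b) ^ ((d : ℝ) / 2)) := by
  rw [← ofReal_integral_eq_lintegral_ofReal (integrable_exp_neg_sq hb)
    (Filter.Eventually.of_forall fun x => (Real.exp_pos _).le)]
  have h := GaussianFourier.integral_rexp_neg_mul_sq_norm (V := Eu d) hb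
  simp only [neg_mul, finrank_euclideanSpace, Fintype.card_fin] at h
  rw [h]

/-- An exponential moment of the target. -/
theorem exp_moment {V : Eu d → ℝ} (hV : V ∈ PotClass d) :
    ∫⁻ y, ENNReal.ofReal (Real.exp (‖y‖ ^ 2 / 4)) ∂(target V) ≤ ENNReal.ofReal (Real.exp d) := by
  have hp := PotClass.pot hV
  have hc : Continuous V := hV.1.continuous
  unfold target gibbsOn
  rw [lintegral_smul_measure, lintegral_withDensity_eq_lintegral_mul _ (by fun_prop) (by fun_prop),
    smul_eq_mul]
  simp only [Pi.mul_apply]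
  have h1 : ∫⁻ y : Eu d, ENNReal.ofReal (Real.exp (-V y)) *
      ENNReal.ofReal (Real.exp (‖y‖ ^ 2 / 4)) ≤
      ENNReal.ofReal ((Real.pi / (1 / 4)) ^ ((d : ℝ) / 2)) := by
    rw [← lintegral_gauss (by norm_num)]
    refine lintegral_mono fun y => ?_
    rw [← ENNReal.ofReal_mul (Real.exp_pos _).le, ← Real.exp_add]
    refine ENNReal.ofReal_le_ofReal (Real.exp_le_exp.2 ?_)
    have := hp.low y
    linarith
  have h2 : ENNReal.ofReal ((Real.pi / 1) ^ ((d : ℝ) / 2)) ≤
      ∫⁻ x : Eu d, ENNReal.ofReal (Real.exp (-V x)) := by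
    rw [← lintegral_gauss one_pos]
    refine lintegral_mono fun y => ENNReal.ofReal_le_ofReal (Real.exp_le_exp.2 ?_)
    have := hp.up y
    linarith
  have hpi : 0 < (Real.pi / 1) ^ ((d : ℝ) / 2) := by positivity
  calc _ ≤ (ENNReal.ofReal ((Real.pi / 1) ^ ((d : ℝ) / 2)))⁻¹ *
        ENNReal.ofReal ((Real.pi / (1 / 4)) ^ ((d : ℝ) / 2)) := by
        gcongr
    _ = ENNReal.ofReal ((4 : ℝ) ^ ((d : ℝ) / 2)) := by
        rw [← ENNReal.ofReal_inv_of_pos hpi, ← ENNReal.ofReal_mul (by positivity),
          show Real.pi / (1 / 4) = 4 * (Real.pi / 1) by ring,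
          Real.mul_rpow (by norm_num) (by positivity)]
        congr 1
        field_simp
    _ ≤ ENNReal.ofReal (Real.exp d) := by
        refine ENNReal.ofReal_le_ofReal ?_
        rw [show (4 : ℝ) = 2 ^ (2 : ℝ) by norm_num, ← Real.rpow_mul (by norm_num),
          show 2 * ((d : ℝ) / 2) = d by ring, ← Real.exp_one_rpow]
        refine Real.rpow_le_rpow (by norm_num) ?_ (Nat.cast_nonneg d)
        have := Real.add_one_le_exp 1
        linarith

/-- The tail of the `p`-th moment. -/
theorem tail_moment {V : Eu d → ℝ} (hV : V ∈ PotClass d) (p : ℕ) {R L : ℝ} (hR : 1 ≤ R)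
    (hL : 0 < L) (hRL : 8 * (d + L) ≤ R ^ 2) :
    ∫⁻ y, {y : Eu d | R < ‖y‖}.indicator (fun y => ENNReal.ofReal ((2 * ‖y‖) ^ p)) y ∂(target V) ≤
      ENNReal.ofReal (16 ^ p * p.factorial / L) := by
  have h1 : ∀ y : Eu d, {y : Eu d | R < ‖y‖}.indicator
      (fun y => ENNReal.ofReal ((2 * ‖y‖) ^ p)) y ≤
      ENNReal.ofReal (16 ^ p * p.factorial * Real.exp (-(d + L))) *
        ENNReal.ofReal (Real.exp (‖y‖ ^ 2 / 4)) := by
    intro y
    by_cases hy : R < ‖y‖
    · rw [indicator_of_mem (show y ∈ {y : Eu d | R < ‖y‖} from hy),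
        ← ENNReal.ofReal_mul (by positivity)]
      refine ENNReal.ofReal_le_ofReal ?_
      have h2 := Real.pow_div_factorial_le_exp (‖y‖ ^ 2 / 8) (by positivity) p
      rw [div_le_iff₀ (by positivity)] at h2
      have h3 : R ^ 2 ≤ ‖y‖ ^ 2 := by gcongr
      have h4 : Real.exp (‖y‖ ^ 2 / 8) ≤ Real.exp (-(d + L)) * Real.exp (‖y‖ ^ 2 / 4) := by
        rw [← Real.exp_add]
        exact Real.exp_le_exp.2 (by linarith)
      calc (2 * ‖y‖) ^ p ≤ (16 * (‖y‖ ^ 2 / 8)) ^ p :=
            pow_le_pow_left₀ (by positivity) (by nlinarith) p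
        _ = 16 ^ p * (‖y‖ ^ 2 / 8) ^ p := mul_pow _ _ _
        _ ≤ 16 ^ p * (Real.exp (-(d + L)) * Real.exp (‖y‖ ^ 2 / 4) * p.factorial) := by
            gcongr
            exact h2.trans (by gcongr)
        _ = _ := by ring
    · rw [indicator_of_notMem (show y ∉ {y : Eu d | R < ‖y‖} from hy)]
      exact bot_le
  refine (lintegral_mono h1).trans ?_
  rw [lintegral_const_mul _ (by fun_prop)]
  refine (mul_le_mul_right (exp_moment hV) _).trans ?_
  rw [← ENNReal.ofReal_mul (by positivity)]
  refine ENNReal.ofReal_le_ofReal ?_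
  rw [mul_assoc, ← Real.exp_add, show -((d : ℝ) + L) + d = -L by ring, Real.exp_neg,
    ← div_eq_mul_inv]
  have := Real.add_one_le_exp L
  gcongr
  linarith

/-- The output is replaced by `0` if it is outside of the ball of radius `R`. -/
noncomputable def clip (R : ℝ) (x : Eu d) : Eu d := if ‖x‖ ≤ R then x else 0

theorem measurable_clip (R : ℝ) : Measurable (clip (d := d) R) :=
  Measurable.ite (measurableSet_le measurable_norm measurable_const) measurable_id measurable_const

theorem norm_clip_le {R : ℝ} (hR : 0 ≤ R) (x : Eu d) : ‖clip R x‖ ≤ R := by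
  unfold clip
  split_ifs with h
  · exact h
  · rwa [norm_zero]

/-- The algorithm with the clipped output. -/
noncomputable def clipAlgo (A : Algo d q) (R : ℝ) : Algo d q :=
  { A with out := fun z => clip R (A.out z), out_meas := (measurable_clip R).comp A.out_meas }

theorem answers_clip (A : Algo d q) (R : ℝ) (V : Eu d → ℝ) (ω : A.Ω) : ∀ (k : ℕ) (hk : k ≤ q),
    (clipAlgo A R).answers V ω k hk = A.answers V ω k hk := by
  intro k
  induction k with
  | zero => exact fun _ => rfl
  | succ k ih =>
    intro hk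
    simp only [Algo.answers, ih]
    rfl

theorem measurable_run (A : Algo d q) {V : Eu d → ℝ} (hV : V ∈ PotClass d) : letI := A.mΩ
    Measurable fun ω => A.out (ω, A.answers V ω q le_rfl) := by
  let _ := A.mΩ
  have hp := PotClass.pot hV
  have ho : Measurable (oracle V) := by
    refine Continuous.measurable (Continuous.prodMk hV.1.continuous ?_)
    exact ((rieszL d).contDiff.comp (hV.1.fderiv_right (m := 1) (by norm_num))).continuous
  have h : ∀ (k : ℕ) (hk : k ≤ q), Measurable fun ω : A.Ω => A.answers V ω k hk := by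
    intro k
    induction k with
    | zero => exact fun _ => measurable_pi_lambda _ fun i => i.elim0
    | succ k ih =>
      intro hk
      have h1 := ih (Nat.le_of_succ_le hk)
      have h2 := ho.comp ((A.query_meas ⟨k, hk⟩).comp (measurable_id.prodMk h1))
      refine measurable_pi_lambda _ fun i => ?_
      refine Fin.lastCases ?_ (fun i => ?_) i
      · simp only [Algo.answers, Fin.snoc_last]
        exact h2
      · simp only [Algo.answers, Fin.snoc_castSucc]
        exact (measurable_pi_apply i).comp h1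
  exact A.out_meas.comp (measurable_id.prodMk (h q le_rfl))

theorem law_clip (A : Algo d q) (R : ℝ) {V : Eu d → ℝ} (hV : V ∈ PotClass d) :
    (clipAlgo A R).law V = (A.law V).map (clip R) := by
  let _ := A.mΩ
  unfold Algo.law
  rw [Measure.map_map (measurable_clip R) (measurable_run A hV)]
  congr 1
  funext ω
  exact congrArg (fun a => clip R (A.out (ω, a))) (answers_clip A R V ω q le_rfl)

theorem law_prob (A : Algo d q) {V : Eu d → ℝ} (hV : V ∈ PotClass d) :
    IsProbabilityMeasure (A.law V) := by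
  let _ := A.mΩ
  have := A.prob
  exact Measure.isProbabilityMeasure_map (measurable_run A hV).aemeasurable

/-- The coupling of the clipped output with the target. -/
theorem clip_coupling (A : Algo d q) {θ R L : ℝ} (hA : A.Within θ) {p : ℕ} (hp : p ≠ 0)
    (hR : 1 ≤ R) (hL : 0 < L) (hRL : 8 * (d + L) ≤ R ^ 2) {V : Eu d → ℝ} (hV : V ∈ PotClass d) :
    ∃ γ : Measure (Eu d × Eu d), γ.fst = (clipAlgo A R).law V ∧ γ.snd = target V ∧
      γ {z | z.1 ≠ z.2} ≤ ENNReal.ofReal ((2 * R) ^ p * θ + 16 ^ p * p.factorial / L) ∧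
      ∫⁻ z, ‖z.1 - z.2‖ₑ ^ p ∂γ ≤
        ENNReal.ofReal ((2 * R) ^ p * θ + 16 ^ p * p.factorial / L) := by
  have := law_prob A hV
  have : IsProbabilityMeasure (target V) := by
    rw [target_eq_gibbs hV]
    exact (PotClass.pot hV).adm.isProb
  have hθ : 0 ≤ θ := (abs_nonneg _).trans (hA V hV ∅ MeasurableSet.empty)
  have hE : MeasurableSet {z : Eu d × Eu d | z.1 ≠ z.2} :=
    (isClosed_eq continuous_fst continuous_snd).measurableSet.compl
  obtain ⟨γ, h1, h2, h3⟩ := exists_coupling hE (A.law V) (target V) (hA V hV)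
  have hm : Measurable fun z : Eu d × Eu d => (clip R z.1, z.2) :=
    ((measurable_clip R).comp measurable_fst).prodMk measurable_snd
  have hT : MeasurableSet {y : Eu d | R < ‖y‖} := measurableSet_lt measurable_const measurable_norm
  have hg : Measurable ({y : Eu d | R < ‖y‖}.indicator
      (fun y => ENNReal.ofReal ((2 * ‖y‖) ^ p))) := Measurable.indicator (by fun_prop) hT
  have key : ∀ f : Eu d × Eu d → ℝ≥0∞, Measurable f → (∀ y, f (y, y) = 0) →
      (∀ x y, ∀ t : ℝ, 1 ≤ t → ‖x‖ ≤ t → ‖y‖ ≤ t → f (x, y) ≤ ENNReal.ofReal ((2 * t) ^ p)) →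
      ∫⁻ z, f z ∂(γ.map fun z => (clip R z.1, z.2)) ≤
        ENNReal.ofReal ((2 * R) ^ p * θ + 16 ^ p * p.factorial / L) := by
    intro f hf f0 f1
    rw [lintegral_map hf hm]
    have h4 : ∀ z : Eu d × Eu d, f (clip R z.1, z.2) ≤
        {z : Eu d × Eu d | z.1 ≠ z.2}.indicator (fun _ => ENNReal.ofReal ((2 * R) ^ p)) z +
        {y : Eu d | R < ‖y‖}.indicator (fun y => ENNReal.ofReal ((2 * ‖y‖) ^ p)) z.2 := by
      rintro ⟨x, y⟩
      have hx := norm_clip_le (by linarith : (0 : ℝ) ≤ R) x
      by_cases hy : R < ‖y‖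
      · rw [indicator_of_mem (show y ∈ {y : Eu d | R < ‖y‖} from hy)]
        exact (f1 _ _ _ (by linarith) (by linarith) le_rfl).trans le_add_self
      · by_cases hxy : x = y
        · subst hxy
          rw [show clip R x = x from if_pos (not_lt.1 hy), f0]
          exact bot_le
        · rw [indicator_of_mem (show (x, y) ∈ {z : Eu d × Eu d | z.1 ≠ z.2} from hxy)]
          exact (f1 _ _ _ hR hx (not_lt.1 hy)).trans le_self_add
    refine (lintegral_mono h4).trans ?_
    rw [lintegral_add_left (measurable_const.indicator hE), lintegral_indicator_const hE,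
      ENNReal.ofReal_add (by positivity) (by positivity), ENNReal.ofReal_mul (by positivity)]
    refine add_le_add (by gcongr) ?_
    refine le_trans (le_of_eq ?_) (tail_moment hV p hR hL hRL)
    rw [← h2, Measure.snd, lintegral_map hg measurable_snd]
  refine ⟨γ.map fun z => (clip R z.1, z.2), ?_, ?_, ?_, ?_⟩
  · rw [law_clip A R hV, ← h1, Measure.fst, Measure.fst, Measure.map_map measurable_fst hm,
      Measure.map_map (measurable_clip R) measurable_fst]
    rfl
  · rw [← h2, Measure.snd, Measure.snd, Measure.map_map measurable_snd hm]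
    rfl
  · rw [← lintegral_indicator_one hE]
    refine key _ (measurable_const.indicator hE) (fun y => ?_) (fun x y t ht _ _ => ?_)
    · exact indicator_of_notMem (by simp) _
    · refine (indicator_le_self _ _ _).trans ?_
      rw [Pi.one_apply, ← ENNReal.ofReal_one]
      exact ENNReal.ofReal_le_ofReal (one_le_pow₀ (by linarith))
  · refine key _ (by fun_prop) (fun y => ?_) (fun x y t ht hx hy => ?_)
    · simp only [sub_self, enorm_zero, zero_pow hp]
    · rw [← ofReal_norm, ← ENNReal.ofReal_pow (norm_nonneg _)]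
      refine ENNReal.ofReal_le_ofReal ?_
      have := norm_sub_le x y
      gcongr
      linarith

end Vale.Agent.N347
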