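import Vale.Agent.P347.Stmt

/-! P347: rounds of adaptivity. -/

namespace Vale.Agent.N347

open Vale.Agent.P347

/-- The queries of `A` can be made in `r` rounds: each query `k` has a round `ρ k < r`, and its
query point depends only on the seed and on the answers to the queries of earlier rounds. -/
def Rounds {d q : ℕ} (A : Algo d q) (r : ℕ) : Prop :=
  ∃ ρ : Fin q → ℕ, (∀ k, ρ k < r) ∧ ∀ (k : Fin q) (ω : A.Ω) (α β : Fin k → ℝ × Eu d),
    (∀ j : Fin k, ρ (Fin.castLE k.2.le j) < ρ k → α j = β j) →
      A.query k (ω, α) = A.query k (ω, β)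

end Vale.Agent.N347
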