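import Vale.Agent.P347Z.Low.Main
import Vale.Agent.N347.Defs

/-!
P347: the logarithmic lower bound for the number of rounds of adaptivity.
-/

open MeasureTheory Module Finset
open scoped RealInnerProductSpace ENNReal

namespace Vale.Agent.N347

open Vale.Agent.P347 Vale.Agent.P347.Low

variable {d q M : ℕ}

theorem answers_eq (A : Algo d q) (V : Eu d → ℝ) (ω : A.Ω) : ∀ (k : ℕ) (hk : k ≤ q) (j : Fin k),
    A.answers V ω k hk j = oracle V (A.query ⟨j, lt_of_lt_of_le j.2 hk⟩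
      (ω, A.answers V ω j (j.2.le.trans hk))) := by
  intro k
  induction k with
  | zero => exact fun _ j => j.elim0
  | succ k ih =>
    intro hk j
    refine Fin.lastCases ?_ (fun j => ?_) j
    · simp only [Algo.answers, Fin.snoc_last]
      rfl
    · simp only [Algo.answers, Fin.snoc_castSucc]
      exact ih _ j

theorem answers_castLE (A : Algo d q) (V : Eu d → ℝ) (ω : A.Ω) (k : Fin q) (j : Fin k) :
    A.answers V ω k k.2.le j = A.answers V ω q le_rfl (Fin.castLE k.2.le j) := by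
  rw [answers_eq, answers_eq]
  rfl

/-- A vector of the block Krylov space of depth `r` with at most `N` starting vectors fails the
test. -/
theorem not_test' {d r k N : ℕ} {δ ε : ℝ} {u : Fin k → Eu d} {z : Eu d} (hk : k ≤ N)
    (hd : 2 * r + 2 ≤ d) (hδ : 0 ≤ δ) (hε : 0 ≤ ε)
    (hsmall : ε + 4 * ((r : ℝ) + 1) * N * δ ≤ 1 / 4 * (1 / 8) ^ (2 * r + 1))
    (hu : Gram (2 * r + 1) δ u) (hz : z ∈ Kry (2 * r + 1) u r) : ¬ Test (2 * r + 1) ε z := by
  intro hT
  obtain ⟨p, hp, hz⟩ := hz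
  have hd0 : (0 : ℝ) < d := by exact_mod_cast (by omega : 0 < d)
  have hkN : (k : ℝ) ≤ N := by exact_mod_cast hk
  refine poly_far (M := 2 * r + 1) (Nat.succ_pos _) (Polynomial.C (d : ℝ)⁻¹ * ∑ i, p i ^ 2) ?_ ?_
  · refine lt_of_le_of_lt ((Polynomial.natDegree_C_mul_le _ _).trans
      (Polynomial.natDegree_sum_le_of_forall_le _ _ (n := 2 * r) fun i _ => ?_)) (Nat.lt_succ_self _)
    exact Polynomial.natDegree_pow_le.trans (Nat.mul_le_mul_left 2 (hp i))
  · intro a ha
    have hc := le_card_cell (d := d) ha hd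
    have hc' : (d : ℝ) ≤ 4 * ((r : ℝ) + 1) * (cell d (2 * r + 1) a).card := by
      have h1 : (d : ℝ) ≤ ((2 * (2 * r + 1 + 1) * (cell d (2 * r + 1) a).card : ℕ) : ℝ) := by
        exact_mod_cast hc
      push_cast at h1
      linarith
    have hN : (0 : ℝ) < (cell d (2 * r + 1) a).card := by
      have h1 : (cell d (2 * r + 1) a).card ≠ 0 := by
        intro h0
        rw [h0] at hc
        omega
      exact_mod_cast Nat.pos_of_ne_zero h1
    have he := ip_err (z := z) hδ hu ha (fun i => (p i).eval (node (2 * r + 1) a)) (by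
      intro l hl
      have h1 : (l : ℕ) % (2 * r + 1 + 1) = a := (mem_filter.1 hl).2
      rw [hz l, lam, h1])
    have hs : 0 ≤ ∑ i, (p i).eval (node (2 * r + 1) a) ^ 2 := sum_nonneg fun i _ => sq_nonneg _
    simp only [Polynomial.eval_mul, Polynomial.eval_C, Polynomial.eval_finsetSum,
      Polynomial.eval_pow]
    generalize (∑ i, (p i).eval (node (2 * r + 1) a) ^ 2) = s at he hs ⊢
    refine close (N := (cell d (2 * r + 1) a).card) (I := ip (2 * r + 1) a z z) ?_ (by positivity)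
      hN hε (by positivity) (pow_le_one₀ (by norm_num) (by norm_num)) hsmall ?_ (hT a ha)
    · rw [node]
      have : (0 : ℝ) ≤ (a : ℝ) / ((2 * r + 1 : ℕ) : ℝ) := by positivity
      linarith
    · rw [← mul_assoc, ← div_eq_mul_inv]
      refine he.trans ?_
      have h1 : s = d * ((d : ℝ)⁻¹ * s) := by field_simp
      have h2 : 0 ≤ (d : ℝ)⁻¹ * s := by positivity
      generalize (d : ℝ)⁻¹ * s = g at h1 h2 ⊢
      rw [h1]
      calc δ * (k * (d * g)) ≤ δ * (N * ((4 * ((r : ℝ) + 1) * (cell d (2 * r + 1) a).card) * g)) := by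
            gcongr
        _ = _ := by ring

/-- Revealing the preimages of finitely many vectors. -/
theorem reveal_many {δ : ℝ} (hδ : 0 < δ) (hd : 2 * q < d) (h4 : 4 * (q : ℝ) ≤ δ * d) {η : ℝ≥0∞}
    (hη : ∀ k ≤ q, ∀ r ≤ 2 * q, badP d M k r δ ≤ η) {P : Set (OG d)} (hP : MeasurableSet P)
    {c : ℝ≥0∞} {j : ℕ} {ι : Type} (x : ι → Eu d) (s : Finset ι) :
    ∀ (T : Submodule ℝ (Eu d)) (κ : Measure (OG d)) (k : ℕ) (u : Fin k → Eu d) (U : OG d),
      HaarOn T κ → finrank ℝ T + s.card ≤ 2 * q → k + s.card ≤ q → Gram M δ u → T ≤ Kry M u j →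
      (∀ (R : OG d) (T₁ : Submodule ℝ (Eu d)) (κ₁ : Measure (OG d)) (k₁ : ℕ) (v : Fin k₁ → Eu d),
        k₁ ≤ k + s.card → Fixes T R → Gram M δ v → T ≤ T₁ → T₁ ≤ Kry M v j →
        finrank ℝ T₁ ≤ finrank ℝ T + s.card → (∀ i ∈ s, act (U * R)⁻¹ (x i) ∈ T₁) →
        HaarOn T₁ κ₁ → κ₁ {S | U * R * S ∈ P} ≤ c) →
      κ {R | U * R ∈ P} ≤ s.card * η + c := by
  classical
  induction s using Finset.induction with
  | empty =>
    intro T κ k u U hκ _ _ hu hK h
    have h1 := h 1 T κ k u (by simp) (fun _ _ => rfl) hu le_rfl hK (by simp) (by simp) hκ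
    simpa using h1
  | insert a s ha ih =>
    intro T κ k u U hκ hT hk hu hK h
    rw [Finset.card_insert_of_notMem ha] at hT hk h ⊢
    have h2 : 2 * (finrank ℝ T : ℝ) ≤ δ * d := by
      refine le_trans ?_ h4
      have : 2 * finrank ℝ T ≤ 4 * q := by omega
      exact_mod_cast this
    refine (reveal hδ hκ (by omega) h2 hu hK U (x a) hP (c := s.card * η + c) ?_).trans ?_
    · intro R T₁ κ₁ v hR hv hle hK₁ hr₁ hx hκ₁
      refine ih T₁ κ₁ (k + 1) v (U * R) hκ₁ (by omega) (by omega) hv hK₁ ?_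
      intro R' T₂ κ₂ k₂ w hk₂ hR' hw hle' hK₂ hr₂ hx' hκ₂
      have h3 := h (R * R') T₂ κ₂ k₂ w (by omega) (hR.mul (hR'.mono hle)) hw (hle.trans hle') hK₂
        (by omega) ?_ hκ₂
      · simpa only [mul_assoc] using h3
      · intro i hi
        rw [← mul_assoc]
        rcases Finset.mem_insert.1 hi with rfl | hi
        · rw [mul_inv_rev (U * R) R', act_mul, hR'.inv _ hx]
          exact hle' hx
        · exact hx' i hi
    · refine (add_le_add_left (hη k (by omega) _ (by omega)) _).trans (le_of_eq ?_)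
      push_cast
      ring

theorem pass_le' (A : Algo d q) (ω : A.Ω) {r : ℕ} (ρ : Fin q → ℕ) (hρ : ∀ k, ρ k < r)
    (hdep : ∀ (k : Fin q) (α β : Fin k → ℝ × Eu d),
      (∀ j : Fin k, ρ (Fin.castLE k.2.le j) < ρ k → α j = β j) →
        A.query k (ω, α) = A.query k (ω, β))
    {δ ε : ℝ} (hδ : 0 < δ) (hd : 2 * q < d) (h4 : 4 * (q : ℝ) ≤ δ * d) {η : ℝ≥0∞}
    (hη : ∀ k ≤ q, ∀ r ≤ 2 * q, badP d M k r δ ≤ η)
    (hnot : ∀ k ≤ q + 1, ∀ (u : Fin k → Eu d) (z : Eu d), Gram M δ u → z ∈ Kry M u r →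
      ¬ Test M ε z) :
    ∀ (s t : ℕ) (_ : t + s = r) (T : Submodule ℝ (Eu d)) (κ : Measure (OG d)) (k : ℕ)
      (u : Fin k → Eu d) (U : OG d) (α : Fin q → ℝ × Eu d), HaarOn T κ →
      finrank ℝ T ≤ 2 * (univ.filter fun j => ρ j < t).card →
      k ≤ (univ.filter fun j => ρ j < t).card → Gram M δ u → T ≤ Kry M u t →
      (∀ R, Fixes T R → ∀ j, ρ j < t → A.answers (pot M (U * R)) ω q le_rfl j = α j) →
      κ {R | U * R ∈ Prod.mk ω ⁻¹' passSet A M ε} ≤
        ((univ.filter fun j => t ≤ ρ j).card + 1 : ℕ) * η := by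
  classical
  let _ := A.mΩ
  have hP : MeasurableSet (Prod.mk ω ⁻¹' passSet A M ε) :=
    measurable_prodMk_left (measurableSet_passSet A M ε)
  have hcard : ∀ t, (univ.filter fun j => ρ j < t).card ≤ q := fun t =>
    (Finset.card_filter_le _ _).trans (by simp)
  intro s
  induction s with
  | zero =>
    intro t ht T κ k u U α hκ hT hk hu hK hα
    obtain rfl : t = r := ht
    have h0 := hcard t
    have h2 : 2 * (finrank ℝ T : ℝ) ≤ δ * d := by
      refine le_trans ?_ h4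
      have : 2 * finrank ℝ T ≤ 4 * q := by omega
      exact_mod_cast this
    refine (reveal hδ hκ (by omega) h2 hu hK U (A.out (ω, α)) hP (c := 0) ?_).trans ?_
    · intro R T₁ κ₁ v hR hv hle hK₁ _ hx hκ₁
      refine le_of_eq (measure_eq_zero_iff_ae_notMem.2 ?_)
      filter_upwards [hκ₁.supp] with S hS hmem
      have e1 : A.answers (pot M (U * R * S)) ω q le_rfl = α := by
        rw [mul_assoc]
        exact funext fun j => hα _ (hR.mul (hS.mono hle)) j (hρ j)
      have e2 : act (U * R * S)⁻¹ (A.out (ω, α)) = act (U * R)⁻¹ (A.out (ω, α)) := by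
        rw [mul_inv_rev (U * R) S, act_mul, hS.inv _ hx]
      have h3 : Test M ε (act (U * R * S)⁻¹ (outp A M (ω, U * R * S))) := hmem
      unfold outp at h3
      simp only [e1, e2] at h3
      exact hnot _ (by omega) v _ hv (hK₁ hx) h3
    · rw [add_zero]
      refine (hη k (by omega) _ (by omega)).trans ?_
      refine le_mul_of_one_le_left bot_le ?_
      exact_mod_cast Nat.le_add_left 1 _
  | succ s ih =>
    intro t ht T κ k u U α hκ hT hk hu hK hα
    set I : Finset (Fin q) := univ.filter fun j => ρ j = t with hI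
    have c1 : (univ.filter fun j => ρ j < t + 1).card =
        (univ.filter fun j => ρ j < t).card + I.card := by
      rw [hI, ← Finset.card_union_of_disjoint (by
        rw [Finset.disjoint_filter]
        intro j _ h1 h2
        omega), ← Finset.filter_or]
      congr 1
      exact Finset.filter_congr fun j _ => by omega
    have c2 : (univ.filter fun j => t ≤ ρ j).card =
        I.card + (univ.filter fun j => t + 1 ≤ ρ j).card := by
      rw [hI, ← Finset.card_union_of_disjoint (by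
        rw [Finset.disjoint_filter]
        intro j _ h1 h2
        omega), ← Finset.filter_or]
      congr 1
      exact Finset.filter_congr fun j _ => by omega
    have c3 := hcard (t + 1)
    let x : Fin q → Eu d := fun j => A.query j (ω, fun i => α (Fin.castLE j.2.le i))
    refine (reveal_many hδ hd h4 hη hP
      (c := ((univ.filter fun j => t + 1 ≤ ρ j).card + 1 : ℕ) * η) x I T κ k u U hκ (by omega)
      (by omega) hu hK ?_).trans (le_of_eq ?_)
    · intro R T₁ κ₁ k₁ v hk₁ hR hv hle hK₁ hr₁ hx hκ₁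
      let z : Fin q → Eu d := fun j => act (U * R)⁻¹ (x j)
      let W : Submodule ℝ (Eu d) :=
        Submodule.span ℝ ((I.image fun j => diagM M (z j) : Finset (Eu d)) : Set (Eu d))
      have hW : finrank ℝ W ≤ I.card :=
        (finrank_span_finset_le_card _).trans Finset.card_image_le
      obtain ⟨κ₂, hκ₂⟩ := exists_haarOn (T₁ ⊔ W)
      have := hκ₁.prob
      have hP1 : MeasurableSet {S : OG d | U * R * S ∈ Prod.mk ω ⁻¹' passSet A M ε} :=
        measurable_const_mul (U * R) hP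
      rw [hκ₁.refine_right hκ₂ le_sup_left hP1]
      refine le_trans (lintegral_mono_ae
        (g := fun _ => ((univ.filter fun j => t + 1 ≤ ρ j).card + 1 : ℕ) * η) ?_) (by simp)
      filter_upwards [hκ₁.supp] with S hS
      have h5 := ih (t + 1) (by omega) _ κ₂ k₁ v (U * R * S)
        (fun j => if ρ j = t then
          (1 / 2 * ∑ l, lam M l * (z j l) ^ 2, act (U * R * S) (diagM M (z j))) else α j) hκ₂
        ((Submodule.finrank_add_le_finrank_add_finrank _ _).trans (by omega)) (by omega) hv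
        (sup_le (hK₁.trans (kry_succ v)) (by
          rw [Submodule.span_le]
          intro y hy
          obtain ⟨j, hj, rfl⟩ := Finset.mem_image.1 (Finset.mem_coe.1 hy)
          exact diag_mem_kry (hK₁ (hx j hj)))) ?_
      · refine le_trans (le_of_eq ?_) h5
        simp only [mul_assoc]
      · intro S' hS' j hj
        have hS1 : Fixes T₁ S' := hS'.mono le_sup_left
        have e1 : ∀ i, ρ i < t → A.answers (pot M (U * R * S * S')) ω q le_rfl i = α i := by
          intro i hi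
          rw [mul_assoc, mul_assoc]
          exact hα _ (hR.mul ((hS.mul hS1).mono hle)) i hi
        by_cases hjt : ρ j = t
        · have hjI : j ∈ I := Finset.mem_filter.2 ⟨Finset.mem_univ _, hjt⟩
          have e0 : A.query j (ω, A.answers (pot M (U * R * S * S')) ω j j.2.le) = x j := by
            refine hdep j _ _ fun i hi => ?_
            rw [answers_castLE]
            exact e1 _ (hjt ▸ hi)
          have e2 : act (U * R * S * S')⁻¹ (x j) = z j := by
            rw [mul_assoc (U * R), mul_inv_rev (U * R), act_mul, (hS.mul hS1).inv _ (hx j hjI)]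
          have e3 : act (U * R * S * S') (diagM M (z j)) = act (U * R * S) (diagM M (z j)) := by
            rw [act_mul, hS' _ (Submodule.mem_sup_right (Submodule.subset_span
              (Finset.mem_coe.2 (Finset.mem_image.2 ⟨j, hjI, rfl⟩))))]
          rw [if_pos hjt, answers_eq]
          change oracle _ (A.query j (ω, A.answers (pot M (U * R * S * S')) ω j j.2.le)) = _
          rw [e0, oracle_pot, e2, e3]
        · rw [if_neg hjt]
          exact e1 j (by omega)
    · rw [c2]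
      push_cast
      ring

/-- The averaging over the rotations. -/
theorem average' (A : Algo d q) {r : ℕ} (hr : Rounds A r) {θ δ ε : ℝ}
    (h : A.SamplesWithin (GaussClass d) θ) (hd : 2 * r + 2 ≤ d) (hdq : 2 * q < d) (hδ : 0 < δ)
    (hε : 0 < ε) (h4 : 4 * (q : ℝ) ≤ δ * d) {η : ℝ≥0∞}
    (hη : ∀ k ≤ q, ∀ s ≤ 2 * q, badP d (2 * r + 1) k s δ ≤ η)
    (hsmall : ε + 4 * ((r : ℝ) + 1) * ((q + 1 : ℕ) : ℝ) * δ ≤ 1 / 4 * (1 / 8) ^ (2 * r + 1)) :
    ENNReal.ofReal (1 - θ - 8 * (((2 * r + 1 : ℕ) : ℝ) + 1) ^ 2 / (ε ^ 2 * d)) ≤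
      (q + 1 : ℕ) * η := by
  let _ := A.mΩ
  have := A.prob
  obtain ⟨ρ, hρ, hdep⟩ := hr
  obtain ⟨κ, hκ⟩ := exists_haarOn (⊥ : Submodule ℝ (Eu d))
  have := hκ.prob
  have hS := measurableSet_passSet A (2 * r + 1) ε
  have e1 := Measure.prod_apply (μ := A.P) (ν := κ) hS
  have e2 := Measure.prod_apply_symm (μ := A.P) (ν := κ) hS
  calc ENNReal.ofReal (1 - θ - 8 * (((2 * r + 1 : ℕ) : ℝ) + 1) ^ 2 / (ε ^ 2 * d))
      = ∫⁻ _, ENNReal.ofReal (1 - θ - 8 * (((2 * r + 1 : ℕ) : ℝ) + 1) ^ 2 / (ε ^ 2 * d)) ∂κ := by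
        simp
    _ ≤ (A.P.prod κ) (passSet A (2 * r + 1) ε) := by
        rw [e2]
        exact lintegral_mono fun U => le_pass A h (by omega) (by omega) hε U
    _ ≤ ∫⁻ _, (q + 1 : ℕ) * η ∂A.P := by
        rw [e1]
        refine lintegral_mono fun ω => ?_
        have := pass_le' A ω ρ hρ (fun k => hdep k ω) hδ hdq h4 hη
          (fun k hk u z hu hz => not_test' hk hd hδ.le hε.le hsmall hu hz) r 0 (Nat.zero_add r)
          ⊥ κ 0 Fin.elim0 1 (fun _ => (0, 0)) hκ (by simp) (Nat.zero_le _)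
          ⟨fun i => i.elim0, fun _ _ i => i.elim0⟩ bot_le
          (fun _ _ j hj => absurd hj (Nat.not_lt_zero _))
        simpa only [one_mul, Set.ofPred_mem_eq, Nat.zero_le, Finset.filter_true, Finset.card_univ,
          Fintype.card_fin] using this
    _ = (q + 1 : ℕ) * η := by simp

/-- **Lower bound for the number of rounds.** -/
theorem lower_rounds (A : Algo d q) {r : ℕ} (hr : Rounds A r) {θ : ℝ}
    (h : A.SamplesWithin (GaussClass d) θ) :
    (1 - θ) * d ≤ 40 * ((q : ℝ) + 1) ^ 4 * 2 ^ (17 * (r + 1)) := by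
  have hθ : 0 ≤ θ := (abs_nonneg _).trans (h _ (pot_gauss (M := 1) le_rfl 1) ∅ MeasurableSet.empty)
  obtain ⟨B, hB⟩ : ∃ B : ℝ, B = 2 ^ (r + 1) := ⟨_, rfl⟩
  obtain ⟨N, hN⟩ : ∃ N : ℝ, N = (q : ℝ) + 1 := ⟨_, rfl⟩
  have hB2 : 2 * ((r : ℝ) + 1) ≤ B := by
    have h1 : r + 1 ≤ 2 ^ r := Nat.lt_two_pow_self
    have h2 : ((r : ℝ) + 1) ≤ 2 ^ r := by exact_mod_cast h1
    rw [hB, pow_succ]
    linarith
  have hr0 : (0 : ℝ) ≤ r := Nat.cast_nonneg r
  have hq : (0 : ℝ) ≤ q := Nat.cast_nonneg q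
  have hB1 : 2 ≤ B := by linarith
  have hB0 : 0 < B := by linarith
  have hN1 : 1 ≤ N := by linarith
  have hN0 : 0 < N := by linarith
  have e17 : (2 : ℝ) ^ (17 * (r + 1)) = B ^ 17 := by rw [hB, ← pow_mul, mul_comm]
  rw [e17, ← hN]
  by_contra hcon
  rw [not_le] at hcon
  have hd0 : (0 : ℝ) ≤ d := Nat.cast_nonneg d
  have hdB : 40 * N ^ 4 * B ^ 17 < d := hcon.trans_le (by nlinarith)
  have hmB : ∀ m n : ℕ, m ≤ n → B ^ m ≤ B ^ n := fun m n hmn =>
    pow_le_pow_right₀ (by linarith) hmn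
  have hmN : ∀ m n : ℕ, m ≤ n → N ^ m ≤ N ^ n := fun m n hmn => pow_le_pow_right₀ hN1 hmn
  have hbig : ∀ (c : ℝ) (m n : ℕ), 0 ≤ c → c ≤ 40 → m ≤ 4 → n ≤ 17 → c * N ^ m * B ^ n ≤ d := by
    intro c m n hc0 hc hm hn
    refine le_trans ?_ hdB.le
    have h1 := hmB n 17 hn
    have h2 := hmN m 4 hm
    gcongr
  have hdpos : (0 : ℝ) < d := lt_of_le_of_lt (by positivity) hdB
  have hd1 : B ≤ d := by simpa using hbig 1 0 1 (by norm_num) (by norm_num) (by norm_num) (by norm_num)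
  have hd : 2 * r + 2 ≤ d := by
    have : ((2 * r + 2 : ℕ) : ℝ) ≤ d := by push_cast; linarith
    exact_mod_cast this
  have h4d : 4 * N ≤ d := by
    simpa using hbig 4 1 0 (by norm_num) (by norm_num) (by norm_num) (by norm_num)
  have hdq : 2 * q < d := by
    have : ((2 * q : ℕ) : ℝ) < d := by push_cast; linarith
    exact_mod_cast this
  have h4 : 4 * (q : ℝ) ≤ 1 / (N * B ^ 8) * d := by
    rw [one_div, inv_mul_eq_div, le_div_iff₀ (by positivity)]
    calc 4 * (q : ℝ) * (N * B ^ 8) ≤ 4 * N * (N * B ^ 8) := by gcongr; linarith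
      _ = 4 * N ^ 2 * B ^ 8 := by ring
      _ ≤ d := hbig 4 2 8 (by norm_num) (by norm_num) (by norm_num) (by norm_num)
  have hη : ∀ k ≤ q, ∀ s ≤ 2 * q, badP d (2 * r + 1) k s (1 / (N * B ^ 8)) ≤
      ENNReal.ofReal (32 * N ^ 3 * B ^ 17 / d) := by
    intro k hk s hs
    refine ENNReal.ofReal_le_ofReal ?_
    have hk' : (k : ℝ) ≤ q := by exact_mod_cast hk
    have hs' : (s : ℝ) ≤ 2 * q := by exact_mod_cast hs
    have h1 : (d : ℝ) / 2 ≤ d - s := by linarith
    have h2 : (((2 * r + 1 : ℕ) : ℝ) + 1) * (k + 16) ≤ B * (16 * N) := by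
      push_cast
      gcongr <;> linarith
    calc (((2 * r + 1 : ℕ) : ℝ) + 1) * (k + 16) / (((d : ℝ) - s) * (1 / (N * B ^ 8)) ^ 2)
        ≤ B * (16 * N) / ((d : ℝ) / 2 * (1 / (N * B ^ 8)) ^ 2) := by gcongr
      _ = 32 * N ^ 3 * B ^ 17 / d := by field_simp; ring
  have hsmall : 1 / B ^ 6 + 4 * ((r : ℝ) + 1) * ((q + 1 : ℕ) : ℝ) * (1 / (N * B ^ 8)) ≤
      1 / 4 * (1 / 8) ^ (2 * r + 1) := by
    have e : (1 / 8 : ℝ) ^ (2 * r + 1) = 8 / B ^ 6 := by
      have e1 : B ^ 6 = 8 ^ (2 * r + 1) * 8 := by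
        rw [hB, ← pow_mul, show (r + 1) * 6 = 3 * (2 * r + 1 + 1) by ring, pow_mul, pow_succ]
        norm_num
      rw [e1, one_div, inv_pow]
      field_simp
    have h1 : 4 * ((r : ℝ) + 1) ≤ B ^ 2 := by nlinarith
    rw [show ((q + 1 : ℕ) : ℝ) = N by rw [hN]; push_cast; rfl]
    calc 1 / B ^ 6 + 4 * ((r : ℝ) + 1) * N * (1 / (N * B ^ 8))
        ≤ 1 / B ^ 6 + B ^ 2 * N * (1 / (N * B ^ 8)) := by gcongr
      _ = 1 / 4 * (8 / B ^ 6) := by field_simp; norm_num
      _ = _ := by rw [e]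
  have key := average' A hr h hd hdq (δ := 1 / (N * B ^ 8)) (ε := 1 / B ^ 6) (by positivity)
    (by positivity) h4 hη hsmall
  rw [← ENNReal.ofReal_natCast, ← ENNReal.ofReal_mul (Nat.cast_nonneg _),
    ENNReal.ofReal_le_ofReal_iff (by positivity)] at key
  have h5 : 8 * (((2 * r + 1 : ℕ) : ℝ) + 1) ^ 2 / ((1 / B ^ 6) ^ 2 * d) ≤
      8 * N ^ 4 * B ^ 17 / d := by
    have h1 : ((2 * r + 1 : ℕ) : ℝ) + 1 ≤ B := by push_cast; linarith
    have h2 : (1 : ℝ) ≤ N ^ 4 := one_le_pow₀ hN1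
    calc 8 * (((2 * r + 1 : ℕ) : ℝ) + 1) ^ 2 / ((1 / B ^ 6) ^ 2 * d)
        ≤ 8 * B ^ 2 / ((1 / B ^ 6) ^ 2 * d) := by gcongr
      _ = 8 * 1 * B ^ 14 / d := by field_simp
      _ ≤ 8 * N ^ 4 * B ^ 17 / d := by gcongr <;> [linarith; norm_num]
  have h6 : ((q + 1 : ℕ) : ℝ) * (32 * N ^ 3 * B ^ 17 / d) = 32 * N ^ 4 * B ^ 17 / d := by
    rw [show ((q + 1 : ℕ) : ℝ) = N by rw [hN]; push_cast; rfl]
    ring
  have h7 : 1 - θ ≤ 40 * N ^ 4 * B ^ 17 / d := by
    have : 40 * N ^ 4 * B ^ 17 / d = 8 * N ^ 4 * B ^ 17 / d + 32 * N ^ 4 * B ^ 17 / d := by ring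
    linarith
  rw [le_div_iff₀ hdpos] at h7
  linarith

end Vale.Agent.N347
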