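import Vale.Agent.N347.Couple
import Vale.Agent.N347.Rounds
import Vale.Agent.P347.H941.Base
import Vale.Agent.P347.H941.Diag

/-!
P347: the upper bound with one coupling, and the consequences for `Q(d)` and for the rounds.
-/

open MeasureTheory Filter
open scoped ENNReal RealInnerProductSpace

namespace Vale.Agent.N347

open Vale.Agent.P347

theorem upper (p : ℕ) (hp : 1 ≤ p) (δ : ℝ) (hδ : 0 < δ) : ∃ C : ℝ, ∀ (d : ℕ) (ε : ℝ), 1 ≤ d →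
    0 < ε → ε ≤ 1 → ∃ q : ℕ, (q : ℝ) ≤ C * ((d : ℝ) / ε) ^ δ ∧ ∃ A : Algo d q,
      ∀ V ∈ PotClass d, ∃ γ : Measure (Eu d × Eu d), γ.fst = A.law V ∧ γ.snd = target V ∧
        γ {z | z.1 ≠ z.2} ≤ ENNReal.ofReal ε ∧
        ∫⁻ z, ‖z.1 - z.2‖ₑ ^ p ∂γ ≤ ENNReal.ofReal ε ^ p := by
  obtain ⟨n, hn⟩ : ∃ n : ℕ, n = p * p + p + 1 := ⟨_, rfl⟩
  have hn0 : (0 : ℝ) < n := by rw [hn]; positivity
  obtain ⟨c, hc⟩ : ∃ c : ℝ, c = 2 * (16 ^ p * p.factorial) := ⟨_, rfl⟩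
  have hc0 : 0 < c := by rw [hc]; positivity
  obtain ⟨C₀, hC₀, h⟩ := K.m1 (δ / n) (by positivity)
  refine ⟨C₀ * (2 * (32 * (1 + c)) ^ p) ^ (δ / n), fun d ε hd hε hε1 => ?_⟩
  have hd1 : (1 : ℝ) ≤ d := by exact_mod_cast hd
  have hεp : 0 < ε ^ p := pow_pos hε p
  have hεp1 : ε ^ p ≤ ε := pow_le_of_le_one hε.le hε1 (by omega)
  obtain ⟨x, hx⟩ : ∃ x : ℝ, x = d / ε := ⟨_, rfl⟩
  have hdx : (d : ℝ) ≤ x := by
    rw [hx, le_div_iff₀ hε]
    nlinarith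
  have hx1 : 1 ≤ x := hd1.trans hdx
  have hεx : 1 / ε ^ p ≤ x ^ p := by
    rw [← one_div_pow, hx]
    gcongr
  have hxp : x ≤ x ^ p := le_self_pow₀ hx1 (by omega)
  obtain ⟨L, hL⟩ : ∃ L : ℝ, L = c / ε ^ p := ⟨_, rfl⟩
  have hL0 : 0 < L := by rw [hL]; positivity
  have hLx : L ≤ c * x ^ p := by
    rw [hL, div_eq_mul_one_div]
    gcongr
  obtain ⟨R, hR⟩ : ∃ R : ℝ, R = 8 * (d + L) := ⟨_, rfl⟩
  have hR1 : 1 ≤ R := by rw [hR]; linarith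
  have hRL : 8 * (d + L) ≤ R ^ 2 := by rw [← hR]; nlinarith
  have hRx : 2 * R ≤ 32 * (1 + c) * x ^ p := by
    rw [hR]
    nlinarith [pow_pos (lt_of_lt_of_le one_pos hx1) p]
  have hR2 : 1 ≤ (2 * R) ^ p := one_le_pow₀ (by linarith)
  obtain ⟨q, hq, A, hA⟩ := h d (ε ^ p / (2 * (2 * R) ^ p)) hd (by positivity) (by
    rw [div_le_one (by positivity)]
    linarith)
  refine ⟨q, hq.trans ?_, clipAlgo A R, fun V hV => ?_⟩
  · rw [mul_assoc]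
    refine mul_le_mul_of_nonneg_left ?_ (by linarith)
    have e1 : ((d : ℝ) / ε) ^ δ = (x ^ n) ^ (δ / n) := by
      rw [← hx, ← Real.rpow_natCast, ← Real.rpow_mul (by linarith)]
      congr 1
      field_simp
    rw [e1, ← Real.mul_rpow (by positivity) (by positivity)]
    refine Real.rpow_le_rpow (by positivity) ?_ (by positivity)
    calc (d : ℝ) / (ε ^ p / (2 * (2 * R) ^ p)) = 2 * (2 * R) ^ p * (1 / ε ^ p) * d := by
          field_simp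
      _ ≤ 2 * (32 * (1 + c) * x ^ p) ^ p * x ^ p * x := by gcongr
      _ = 2 * (32 * (1 + c)) ^ p * x ^ n := by
          rw [hn, mul_pow, ← pow_mul]
          ring
  · obtain ⟨γ, h1, h2, h3, h4⟩ := clip_coupling A hA (p := p) (by omega) hR1 hL0 hRL hV
    have e : (2 * R) ^ p * (ε ^ p / (2 * (2 * R) ^ p)) + 16 ^ p * p.factorial / L = ε ^ p := by
      rw [hL, hc]
      field_simp
      norm_num
    rw [e] at h3 h4
    exact ⟨γ, h1, h2, h3.trans (ENNReal.ofReal_le_ofReal hεp1),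
      h4.trans (le_of_eq (ENNReal.ofReal_pow hε.le p))⟩

theorem good_upper (δ : ℝ) (hδ : 0 < δ) : ∃ C : ℝ, ∀ d : ℕ, 1 ≤ d → ∃ q : ℕ,
    (q : ℝ) ≤ C * (d : ℝ) ^ δ ∧ ∃ A : Algo d q, A.Good := by
  obtain ⟨C, -, hC⟩ := K.m1 δ hδ
  refine ⟨C * 10 ^ δ, fun d hd => ?_⟩
  obtain ⟨q, hq, A, hA⟩ := hC d (1 / 10) hd (by norm_num) (by norm_num)
  refine ⟨q, hq.trans (le_of_eq ?_), A, hA⟩
  rw [show (d : ℝ) / (1 / 10) = 10 * d by ring, Real.mul_rpow (by norm_num) (Nat.cast_nonneg d)]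
  ring

theorem attained (d : ℕ) (hd : 1 ≤ d) : ∃ A : Algo d (Q d), A.Good := by
  obtain ⟨C, hC⟩ := good_upper 1 one_pos
  obtain ⟨q, -, hq⟩ := hC d hd
  exact Nat.sInf_mem (s := {q | ∃ A : Algo d q, A.Good}) ⟨q, hq⟩

theorem Q_upper (δ : ℝ) (hδ : 0 < δ) : ∃ C : ℝ, ∀ d : ℕ, 1 ≤ d → (Q d : ℝ) ≤ C * (d : ℝ) ^ δ := by
  obtain ⟨C, hC⟩ := good_upper δ hδ
  refine ⟨C, fun d hd => ?_⟩
  obtain ⟨q, hq, hA⟩ := hC d hd
  have h1 : Q d ≤ q := Nat.sInf_le (show q ∈ {q | ∃ A : Algo d q, A.Good} from hA)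
  exact le_trans (by exact_mod_cast h1) hq

theorem Q_lower : ∀ᶠ d : ℕ in atTop, 1 / 50 * Real.log d ≤ Q d := by
  have hl : Tendsto (fun d : ℕ => Real.log d) atTop atTop :=
    Real.tendsto_log_atTop.comp tendsto_natCast_atTop_atTop
  filter_upwards [hl.eventually_ge_atTop 52, eventually_ge_atTop 1] with d h52 hd
  obtain ⟨A, hA⟩ := attained d hd
  have h1 := Low.lower A (θ := 1 / 10) fun V hV => hA V hV.1
  have hd0 : (0 : ℝ) < d := by exact_mod_cast hd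
  have h2 : (d : ℝ) ≤ 2 ^ (25 * (Q d + 1) + 1) := by
    rw [pow_succ]
    linarith
  have h3 := Real.log_le_log hd0 h2
  rw [Real.log_pow] at h3
  have h4 : Real.log 2 ≤ 1 := by
    have := Real.log_two_lt_d9
    linarith
  have h5 : ((25 * (Q d + 1) + 1 : ℕ) : ℝ) * Real.log 2 ≤ ((25 * (Q d + 1) + 1 : ℕ) : ℝ) :=
    mul_le_of_le_one_right (Nat.cast_nonneg _) h4
  push_cast at h3 h5
  linarith

/-- With at most `d ^ (1 / 5)` queries, a good algorithm needs `c log d` rounds. -/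
theorem rounds_log : ∀ᶠ d : ℕ in atTop, ∀ (q r : ℕ) (A : Algo d q), A.Good → Rounds A r →
    (q : ℝ) ≤ (d : ℝ) ^ (1 / 5 : ℝ) → 1 / 100 * Real.log d ≤ r := by
  have hl : Tendsto (fun d : ℕ => Real.log d) atTop atTop :=
    Real.tendsto_log_atTop.comp tendsto_natCast_atTop_atTop
  filter_upwards [hl.eventually_ge_atTop 1000, eventually_ge_atTop 1] with d hbig hd q r A hA hr hq
  have h1 := lower_rounds A hr (θ := 1 / 10) fun V hV => hA V hV.1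
  have hd1 : (1 : ℝ) ≤ d := by exact_mod_cast hd
  obtain ⟨y, hy⟩ : ∃ y : ℝ, y = (d : ℝ) ^ (1 / 5 : ℝ) := ⟨_, rfl⟩
  have hy1 : 1 ≤ y := by rw [hy]; exact Real.one_le_rpow hd1 (by norm_num)
  have hy5 : y ^ 5 = d := by
    rw [hy, ← Real.rpow_natCast, ← Real.rpow_mul (by linarith)]
    norm_num
  rw [← hy] at hq
  have h2 : ((q : ℝ) + 1) ^ 4 ≤ (2 * y) ^ 4 := by
    gcongr
    linarith
  have h3 : y ≤ 2 ^ (17 * (r + 1) + 10) := by
    have h4 : y ^ 4 * y ≤ y ^ 4 * 2 ^ (17 * (r + 1) + 10) := by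
      have h5 : (0 : ℝ) < 2 ^ (17 * (r + 1)) := by positivity
      have h6 : 40 * ((q : ℝ) + 1) ^ 4 * 2 ^ (17 * (r + 1)) ≤
          40 * (2 * y) ^ 4 * 2 ^ (17 * (r + 1)) := by gcongr
      have h7 : 0 ≤ y ^ 4 * 2 ^ (17 * (r + 1)) := by positivity
      rw [pow_add (2 : ℝ) (17 * (r + 1)) 10, ← pow_succ, hy5]
      nlinarith
    exact le_of_mul_le_mul_left h4 (by positivity)
  have h8 := Real.log_le_log (by linarith) h3
  rw [Real.log_pow, hy, Real.log_rpow (by linarith)] at h8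
  have h4 : Real.log 2 ≤ 1 := by
    have := Real.log_two_lt_d9
    linarith
  have h5 : ((17 * (r + 1) + 10 : ℕ) : ℝ) * Real.log 2 ≤ ((17 * (r + 1) + 10 : ℕ) : ℝ) :=
    mul_le_of_le_one_right (Nat.cast_nonneg _) h4
  push_cast at h8 h5
  linarith

end Vale.Agent.N347
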